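import Vale.Agent.P144Q.Basic

/-!
The mixed correlations in a general finite set as Pfaffians.
-/

namespace Vale.Agent.P144Q.E

open Finset Vale.Agent.P144.AL
open Vale.Agent.P144 hiding QQ XX
open Vale.Agent.P144G (KC kk)

theorem unique {Λ : Finset Site} (hc : KC Λ) {τ θ A B C D : Site → ℝ} (h : Spr Λ τ θ A B C D)
    (hθ : ∀ i j : ℤ, θ (i - 1, j) = θ (i - 1, j - 1)) (f : Site) :
    A f = 0 ∧ B f = 0 ∧ C f = 0 ∧ D f = 0 := by
  obtain ⟨Hs, Hf, hH⟩ := P144G.exists_H h hc
  obtain ⟨N, hN⟩ : ∃ M : ℕ, Λ ⊆ box M := (H436.subset_box Λ).exists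
  have hB := HB.of_spr h hH
  have hnn : ∀ x, 0 ≤ lap (hat Λ Hs) x := by
    rintro ⟨i, j⟩
    by_cases hΛ : ((i, j) : Site) ∈ Λ
    · exact (P144G.lap_low h hH hΛ (hθ i j)).trans (hB.lap_hat_in hΛ)
    · exact (hB.hat_nn hΛ).trans (hB.lap_hat_out hΛ)
  have hout : ∀ x ∉ box (N + 1), hat Λ Hs x = 0 := by
    intro x hx
    have h1 : x ∉ Λ := fun h' => hx (H436.box_mono (Nat.le_succ N) (hN h'))
    unfold hat
    rw [if_neg h1, supp_lap (fun y hy => hH.out y fun h' => hy (hN h')) x hx, zero_div]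
  have hl : ∀ x, lap (hat Λ Hs) x = 0 := by
    intro x
    have := mass_any (P := ∅) hout (fun x _ => hnn x) {x}
    rw [sum_singleton, sum_empty, mul_zero] at this
    exact abs_nonpos_iff.1 this
  have hs0 : ∀ x, Hs x = 0 := fun x => by
    by_cases hx : x ∈ Λ
    · rw [← hat_in (Hs := Hs) hx]; exact zero_of_lap hout hl x
    · exact hH.out x hx
  have h2 := sqrt2_sq
  have key : ∀ n : ℕ, ∀ i j : ℤ, (N : ℤ) + 1 - n ≤ j → Hf (i, j) = 0 := by
    intro n
    induction n with
    | zero =>
      intro i j hj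
      refine h.Hf_zero hH (v := (i, j)) (by simp [mem_cnr]) fun hh => ?_
      have := hN hh
      rw [H436.mem_box, abs_le, abs_le] at this
      simp only at this
      lia
    | succ n ih =>
      intro i j hj
      by_cases hj' : (N : ℤ) + 1 - n ≤ j
      · exact ih i j hj'
      · have h1 := ih i (j + 1) (by lia)
        by_cases hh : ((i, j + 1) : Site) ∈ hor Λ
        · have e1 := h.V i j hh
          have ea := hH.a i (j + 1)
          have eb := hH.b i (j + 1)
          have ec := hH.c i j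
          rw [hs0, h1] at ea eb
          rw [hs0] at ec
          have a0 : A (i, j + 1) = 0 := by
            have : A (i, j + 1) ^ 2 = 0 := by linarith
            exact pow_eq_zero_iff (by norm_num) |>.1 this
          have b0 : B (i, j + 1) = 0 := by
            have : B (i, j + 1) ^ 2 = 0 := by linarith
            exact pow_eq_zero_iff (by norm_num) |>.1 this
          have c0 : C (i, j) = 0 := by rw [e1.1, a0, b0]; ring
          rw [c0] at ec
          linarith
        · rw [mem_hor] at hh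
          simp only at hh
          by_cases h3 : ((i, j + 1) : Site) ∈ Λ
          · exact h.Hf_zero hH (v := (i + 1, j + 1)) (by simp [mem_cnr]) fun h4 => hh ⟨h3, h4⟩
          · exact h.Hf_zero hH (v := (i, j + 1)) (by simp [mem_cnr]) h3
  obtain ⟨i, j⟩ := f
  have hf : Hf (i, j) = 0 := key ((N : ℤ) + 1 - j).toNat i j (by lia)
  have ha := hH.a i j
  have hb := hH.b i j
  have hc := hH.c i j
  have hd := hH.d i j
  rw [hs0, hf] at ha hb hc hd
  have z : ∀ x : ℝ, 0 - 0 = x ^ 2 → x = 0 := fun x hx =>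
    pow_eq_zero_iff (by norm_num) |>.1 (by linarith : x ^ 2 = 0)
  exact ⟨z _ ha, z _ hb, z _ hc, z _ hd⟩

/-- The Wick rule. -/
theorem wick {Λ : Finset Site} (hk : KC Λ) (R : Multiset Site) (c : Cn) (l : List Cn)
    (hl : ∀ c' ∈ c :: l, c'.1 ∈ cnr c'.2 ∧ c'.1 ∈ Λ) (hnd : (c :: l).Nodup) :
    Wf Λ R (c :: l) =
      ∑ j : Fin l.length, (-1) ^ (j : ℕ) * Wf Λ R [c, l[j]] *
        Wf Λ R (l.eraseIdx j) := by
  have hl' : ∀ c' ∈ l, c'.1 ∈ cnr c'.2 ∧ c'.1 ∈ Λ := fun c' h =>
    hl c' (List.mem_cons_of_mem _ h)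
  have hc := hl c (List.mem_cons_self ..)
  have hnd' := List.nodup_cons.1 hnd
  have h := unique hk (Ph_spr Λ R l hl' hnd'.2) (fun _ _ => rfl) c.2
  have h0 : Ph Λ R l c = 0 := by
    obtain ⟨v, f⟩ := c
    rcases mem_cnr.1 hc.1 with h1 | h1 | h1 | h1 <;> simp only at h1 <;> subst h1
    · exact h.1
    · exact h.2.1
    · exact h.2.2.1
    · exact h.2.2.2
  have hT : ∀ l' : List Cn, Tl Λ R l' c = (l'.map (ep c)).prod *
      (QQ Λ (c.2 ::ₘ (fcs l' + R)) (c.1 ::ₘ sps l') / QQ Λ R 0) := by
    intro l'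
    unfold Tl Xl
    rw [if_pos hc.2]
  have h1 : el l * Tl Λ R l c = Wf Λ R (c :: l) := by
    rw [hT]
    unfold Wf
    rw [fcs_cons, sps_cons, Multiset.cons_add]
    simp only [el]
    ring
  have h2 : ∀ j : Fin l.length, Tl Λ R [l[j]] c = Wf Λ R [c, l[j]] := by
    intro j
    rw [hT]
    unfold Wf
    rw [fcs_cons c, sps_cons c, Multiset.cons_add]
    simp only [el, List.map_nil, List.prod_nil, List.map_cons, List.prod_cons]
    ring
  unfold Ph at h0
  rw [h1] at h0
  simp only [h2] at h0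
  rw [sub_eq_zero.1 h0]
  exact sum_congr rfl fun j _ => by ring

/-- The correlations of fermions are Pfaffians. -/
theorem Wf_Pf {Λ : Finset Site} (hk : KC Λ) (R : Multiset Site) (l : List Cn)
    (hl : ∀ c ∈ l, c.1 ∈ cnr c.2 ∧ c.1 ∈ Λ) (hnd : l.Nodup) (hev : Even l.length) :
    Wf Λ R l = Pf (fun c c' => Wf Λ R [c, c']) l := by
  induction hn : l.length using Nat.strong_induction_on generalizing l with
  | _ n ih =>
    cases l with
    | nil =>
      rw [Pf]
      unfold Wf
      have e1 : fcs ([] : List Cn) + R = R := by simp [fcs]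
      have e2 : sps ([] : List Cn) = 0 := by simp [sps]
      rw [e1, e2]
      simp only [el, one_mul]
      exact div_self (QQ_pos _ R).ne'
    | cons c l =>
      rw [wick hk R c l hl hnd, Pf]
      refine sum_congr rfl fun j _ => ?_
      rw [ih (l.eraseIdx j).length ?_ _ ?_ ?_ ?_ rfl]
      · have := j.2
        rw [← hn, List.length_eraseIdx, if_pos j.2, List.length_cons]; omega
      · exact fun c' h => hl c' (List.mem_cons_of_mem _ ((List.eraseIdx_sublist l j).subset h))
      · exact (List.nodup_cons.1 hnd).2.sublist (List.eraseIdx_sublist l j)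
      · have h2 : (l.eraseIdx j).length + 2 = (c :: l).length := by
          have := j.2
          rw [List.length_eraseIdx, if_pos j.2, List.length_cons]; omega
        rw [← h2] at hev
        exact (Nat.even_add.1 hev).2 even_two

theorem Wf_list {Λ : Finset Site} {κ : Type*} (P : List Cn) (v : κ → Site) (j : κ → Fin 2)
    (s : List κ) {N : ℕ} {l : List Cn}
    (hl : l = P ++ (flat (fun k => eLo (v k)) (fun k => eHi (v k) (j k)) s ++
      ([] : List (Fin 4)).map (tcn N))) :
    QQ Λ 0 (sps l) / QQ Λ 0 0 = H436.MM Λ (fcs P) * SG [] l * Wf Λ (fcs P) l := by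
  have h : QQ Λ (fcs l + fcs P) (sps l) = QQ Λ 0 (sps l) := by
    unfold QQ
    refine NG_congr (fun x _ => ?_) (fun _ _ => rfl) _
    rw [cutS_add, hl, List.map_nil, List.append_nil, fcs_append, cutS_add, cutS_flat, mul_one,
      cutS_sq]
    simp [cutS]
  have h0 := (QQ_pos Λ 0).ne'
  have h1 := (QQ_pos Λ (fcs P)).ne'
  unfold SG Wf H436.MM
  rw [h]
  have e1 := el_sq l
  simp only [List.map_nil, List.prod_nil, one_mul]
  field_simp
  linear_combination (-QQ Λ 0 (sps l)) * e1

section

variable {n m N : ℕ} {u : Fin n → Site} {v : Fin m → Site} {j : Fin m → Fin 2} {J : ℝ}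
  {Λ : Finset Site}

/-- The kernel of the fermions with the signs of the energies. -/
noncomputable def KK (Λ : Finset Site) (N : ℕ) (u : Fin n → Site) (v : Fin m → Site)
    (j : Fin m → Fin 2) (x y : Lb n m) : ℝ :=
  wl u v j x * wl u v j y * Wf Λ (fcs (srcs u)) [cn N u v j x, cn N u v j y]

/-- The points are inside. -/
structure Ins (Λ : Finset Site) (u : Fin n → Site) (v : Fin m → Site) (j : Fin m → Fin 2) :
    Prop where
  kc : KC Λ
  hu : ∀ i, u i ∈ Λ
  hv : ∀ k, v k ∈ Λ
  hw : ∀ k, v k + dir (j k) ∈ Λ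

theorem Ins.cn (h : Ins Λ u v j) {ks : List (Fin m)} {x : Lb n m} (hx : x ∈ lbs ks []) :
    (cn N u v j x).1 ∈ Λ := by
  cases x with
  | src i => exact h.hu i
  | lo k => exact h.hv k
  | hi k => exact h.hw k
  | tp c => simp [lbs, flat] at hx

theorem base (hJ : 0 < J) (hs : Sep N u v) (hN : 1 ≤ N) (hi : Ins Λ u v j) {ks : List (Fin m)}
    (hk : ks.Nodup) (hev : Even n) :
    gibbs J 0 (fun _ => 0) (Kc / J) none Λ
      (fun σ => GG N u [] σ * (ks.map fun k => XX v j k σ).prod) =
      H436.MM Λ (fcs (srcs u)) * SG [] (srcs u ++ ([] : List (Fin 4)).map (tcn N)) *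
        Pf (KK Λ N u v j) (lbs ks []) := by
  set l : List Cn := (lbs (n := n) ks []).map (cn N u v j) with hl
  have hl' := lbs_map N u v j ks []
  rw [← hl] at hl'
  have hd : ∀ c ∈ l, c.1 ∈ Λ := by
    intro c hc
    rw [hl] at hc
    obtain ⟨x, hx, rfl⟩ := List.mem_map.1 hc
    exact hi.cn hx
  have hcn : ∀ c ∈ l, c.1 ∈ cnr c.2 := by
    intro c hc
    rw [hl] at hc
    obtain ⟨x, _, rfl⟩ := List.mem_map.1 hc
    exact Sep.cn_cnr x
  have hnd : l.Nodup := (lbs_nodup hk List.nodup_nil).map (hs.cn_inj hN)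
  have hlen : Even l.length := by
    rw [hl, List.length_map, lbs_length]
    exact hev.add (by simp)
  have e1 : (fun σ => GG N u [] σ * (ks.map fun k => XX v j k σ).prod) =
      fun σ : Config => ((sps l).map fun x => sp (σ x)).prod := by
    funext σ
    have h1 : ((sps l).map fun x => sp (σ x)).prod = (l.map fun c => sp (σ c.1)).prod := by
      unfold sps
      rw [Multiset.map_coe, Multiset.prod_coe, List.map_map]; rfl
    rw [h1, hl']
    unfold GG
    simp only [List.map_append, List.prod_append]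
    have h2 : ((flat (fun k => eLo (v k)) (fun k => eHi (v k) (j k)) ks).map
        fun c => sp (σ c.1)).prod = (ks.map fun k => XX v j k σ).prod := by
      induction ks with
      | nil => rfl
      | cons k ks ih =>
        have := ih (List.nodup_cons.1 hk).2
        rw [flat_cons, List.map_cons, List.map_cons, List.prod_cons, List.prod_cons, List.map_cons,
          List.prod_cons]
        rw [flat_map_prod] at *
        unfold XX eLo eHi
        ring
    rw [h2]; ring
  have hSG := SG_flat (N := N) (srcs u) [] v j ks (by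
    intro c hc
    unfold srcs at hc
    obtain ⟨i, _, rfl⟩ := List.mem_map.1 hc
    exact mem_cnr.2 (Or.inl rfl)) (by
    intro c hc k _
    unfold srcs at hc
    obtain ⟨i, _, rfl⟩ := List.mem_map.1 hc
    exact ⟨fun h => hs.uv i k (congrArg Prod.snd h), fun h => hs.uv i k (congrArg Prod.snd h)⟩)
    (fun k _ => hs.v_in k) (hk.map hs.v_inj)
  rw [← hl'] at hSG
  rw [e1, gibbs_spn hJ (by
    intro x hx
    unfold sps at hx
    obtain ⟨c, hc, rfl⟩ := List.mem_map.1 (Multiset.mem_coe.1 hx)
    exact hd c hc), Wf_list (srcs u) v j ks hl', hSG, Wf_Pf hi.kc _ _ (fun c hc => ⟨hcn c hc, hd c hc⟩)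
    hnd hlen, hl, Pf_map]
  have e3 := Pf_scale (fun x y : Lb n m => Wf Λ (fcs (srcs u)) [cn N u v j x, cn N u v j y])
    (wl u v j) (lbs ks []) (by rw [← List.length_map (f := cn N u v j), ← hl]; exact hlen)
  rw [lbs_sign] at e3
  unfold KK
  rw [e3]
  ring

theorem base' (hJ : 0 < J) (hs : Sep N u v) (hN : 1 ≤ N) (hi : Ins Λ u v j) {ks : List (Fin m)}
    (hk : ks.Nodup) :
    gibbs J 0 (fun _ => 0) (Kc / J) none Λ
      (fun σ => GG N u [] σ * (ks.map fun k => XX v j k σ).prod) =
      H436.MM Λ (fcs (srcs u)) * SG [] (srcs u ++ ([] : List (Fin 4)).map (tcn N)) *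
        Pf (KK Λ N u v j) (lbs ks []) := by
  by_cases hev : Even n
  · exact base hJ hs hN hi hk hev
  · have hlen : ¬ Even (lbs (n := n) ks []).length := by
      rw [lbs_length]
      intro h
      apply hev
      exact (Nat.even_add.1 h).2 (by simp)
    rw [Pf_odd _ _ hlen, mul_zero]
    have e1 := gibbs_spn hJ (Λ := Λ) (A := sps ((lbs (n := n) ks []).map (cn N u v j))) (by
      intro x hx
      unfold sps at hx
      obtain ⟨c, hc, rfl⟩ := List.mem_map.1 (Multiset.mem_coe.1 hx)
      obtain ⟨y, hy, rfl⟩ := List.mem_map.1 hc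
      exact hi.cn hy)
    rw [QQ_odd 0 (by
      intro x hx
      unfold sps at hx
      obtain ⟨c, hc, rfl⟩ := List.mem_map.1 (Multiset.mem_coe.1 hx)
      obtain ⟨y, hy, rfl⟩ := List.mem_map.1 hc
      exact hi.cn hy) (by
      unfold sps
      rw [Multiset.coe_card, List.length_map, List.length_map]
      exact Nat.not_even_iff_odd.1 hlen), zero_div] at e1
    refine Eq.trans ?_ e1
    refine congrArg (gibbs J 0 (fun _ => 0) (Kc / J) none Λ) (funext fun σ => ?_)
    have h1 : ((sps ((lbs (n := n) ks []).map (cn N u v j))).map fun x => sp (σ x)).prod =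
        (((lbs (n := n) ks []).map (cn N u v j)).map fun c => sp (σ c.1)).prod := by
      unfold sps
      rw [Multiset.map_coe, Multiset.prod_coe, List.map_map]; rfl
    rw [h1, lbs_map]
    unfold GG
    simp only [List.map_append, List.prod_append]
    rw [flat_map_prod]
    have h2 : (ks.map fun k => sp (σ (eLo (v k)).1) * sp (σ (eHi (v k) (j k)).1)).prod =
        (ks.map fun k => XX v j k σ).prod := rfl
    rw [h2]; ring

/-- The centred mixed correlations. -/
theorem mix (hJ : 0 < J) (hs : Sep N u v) (hN : 1 ≤ N) (hi : Ins Λ u v j) {ks : List (Fin m)}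
    (hk : ks.Nodup) (t : Fin m → ℝ) :
    gibbs J 0 (fun _ => 0) (Kc / J) none Λ
      (fun σ => GG N u [] σ * (ks.map fun k => XX v j k σ - t k).prod) =
      H436.MM Λ (fcs (srcs u)) * SG [] (srcs u ++ ([] : List (Fin 4)).map (tcn N)) *
        Pf (cenK (KK Λ N u v j) Lb.lo Lb.hi t ks) (lbs ks []) := by
  set M := H436.MM Λ (fcs (srcs u)) * SG [] (srcs u ++ ([] : List (Fin 4)).map (tcn N)) with hM
  have hM0 : M ≠ 0 := by
    refine mul_ne_zero ?_ ?_
    · exact (div_pos (QQ_pos _ _) (QQ_pos _ _)).ne'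
    · intro h
      have := SG_sq [] (srcs u ++ ([] : List (Fin 4)).map (tcn N))
      rw [h] at this
      norm_num at this
  have h := cen_pf (L := fun F => gibbs J 0 (fun _ => 0) (Kc / J) none Λ F / M)
    (fun f g c => by
      show gibbs J 0 (fun _ => 0) (Kc / J) none Λ (fun σ => f σ - c * g σ) / M = _
      rw [gibbs_lin hJ]; ring)
    (XX v j) t (GG N u []) Lb.lo Lb.hi (KK Λ N u v j) ((List.finRange n).map Lb.src) (([] : List (Fin 4)).map Lb.tp) ks
    (lbs_nodup hk List.nodup_nil) (fun s hs' => by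
      show gibbs J 0 (fun _ => 0) (Kc / J) none Λ _ / M = _
      rw [base' hJ hs hN hi (hk.sublist hs'), mul_div_cancel_left₀ _ hM0]
      rfl)
  rw [div_eq_iff hM0] at h
  rw [h, mul_comm]
  rfl

/-- The mean of an energy. -/
theorem mean_eq (hJ : 0 < J) {x : Site} (i : Fin 2) (hx : x ∈ Λ) (hx' : x + dir i ∈ Λ) :
    gibbs J 0 (fun _ => 0) (Kc / J) none Λ (fun σ => sp (σ x) * sp (σ (x + dir i))) =
      ep (eLo x) (eHi x i) * Wf Λ 0 [eLo x, eHi x i] := by
  have h1 := gibbs_spn (Λ := Λ) hJ (A := x ::ₘ (x + dir i) ::ₘ 0) (by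
    intro y hy
    rw [Multiset.mem_cons, Multiset.mem_cons] at hy
    rcases hy with rfl | rfl | hy
    · exact hx
    · exact hx'
    · simp at hy)
  simp only [Multiset.map_cons, Multiset.prod_cons, Multiset.map_zero, Multiset.prod_zero,
    mul_one] at h1
  rw [h1]
  unfold Wf
  have e1 : fcs [eLo x, eHi x i] + 0 = x ::ₘ x ::ₘ 0 := by rw [add_zero]; rfl
  have e2 : sps [eLo x, eHi x i] = x ::ₘ (x + dir i) ::ₘ 0 := rfl
  rw [e1, e2, QQ_dis_pair]
  simp only [el, List.map_cons, List.map_nil, List.prod_cons, List.prod_nil, mul_one]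
  have := ep_sq (eLo x) (eHi x i)
  linear_combination (-(QQ Λ 0 (x ::ₘ (x + dir i) ::ₘ 0) / QQ Λ 0 0)) * this

end

end Vale.Agent.P144Q.E
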