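import Vale.Agent.P144Q.E.Cor
import Vale.Agent.P144.U.AL.TipLim

/-!
The limits of the mixed correlations from the limits of the kernels.
-/

namespace Vale.Agent.P144Q.E

open Finset Vale.Agent.P144.AL Filter Topology
open Vale.Agent.P144 hiding QQ XX
open Vale.Agent.P144.H436 (nn MM)

section

variable (Λ : ℝ → Finset Site) (p : Pts)

/-- The mean of an energy. -/
noncomputable def tk (a : ℝ) (k : Fin p.m) : ℝ :=
  ep (cnp p a (.lo k)) (cnp p a (.hi k)) * Wf (Λ a) 0 [cnp p a (.lo k), cnp p a (.hi k)]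

/-- The signed kernel. -/
noncomputable def Kw (a : ℝ) (x y : Lb p.n p.m) : ℝ :=
  KK (Λ a) (nn a) (fun i => fl a (p.x i)) (fun k => fl a (p.y k)) p.j x y

/-- The scaled kernel converges. -/
def PL (x y : Lb p.n p.m) : Prop := ∃ c : ℂ,
  Tendsto (fun a : ℝ => rr p a x * rr p a y * (Kw Λ p a x y : ℂ)) (𝓝[>] 0) (𝓝 c)

theorem Kw_swap (hp : H436.Good0 p) {x y : Lb p.n p.m} (h : x ≠ y) :
    ∀ᶠ a in 𝓝[>] (0:ℝ), Kw Λ p a x y = -Kw Λ p a y x := by
  filter_upwards [sep_ev p hp] with a hs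
  unfold Kw KK
  rw [Wf_swap _ _ (Sep.cn_cnr x) (Sep.cn_cnr y) fun h' => h (hs.1.cn_inj hs.2 h')]
  ring

theorem PL.swap (hp : H436.Good0 p) {x y : Lb p.n p.m} (h : x ≠ y) (hP : PL Λ p x y) : PL Λ p y x := by
  obtain ⟨c, hl⟩ := hP
  refine ⟨-c, hl.neg.congr' ?_⟩
  filter_upwards [Kw_swap Λ p hp h] with a ha
  rw [ha]; push_cast; ring

theorem PL_of {x y : Lb p.n p.m} (hx : ¬ isTp p x) (hy : ¬ isTp p y) {c : ℂ}
    (h : Tendsto (fun a : ℝ => rho p a x * rho p a y * (Kn Λ p a x y : ℂ) / a) (𝓝[>] 0) (𝓝 c)) :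
    PL Λ p x y := by
  refine ⟨c, h.congr' ?_⟩
  filter_upwards [self_mem_nhdsWithin] with a ha
  have ha : 0 < a := ha
  have hs : (√a : ℂ) ≠ 0 := by exact_mod_cast (Real.sqrt_pos.2 ha).ne'
  rw [rr_eq p a hx, rr_eq p a hy, show Kw Λ p a x y = wl (fun i => fl a (p.x i))
    (fun k => fl a (p.y k)) p.j x * wl (fun i => fl a (p.x i)) (fun k => fl a (p.y k)) p.j y *
    Kn Λ p a x y from rfl, ← sqrt_mul_C ha]
  have h1 := congrArg (fun t : ℝ => (t : ℂ)) (wl_sq p (fun i => fl a (p.x i))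
    (fun k => fl a (p.y k)) x)
  have h2 := congrArg (fun t : ℝ => (t : ℂ)) (wl_sq p (fun i => fl a (p.x i))
    (fun k => fl a (p.y k)) y)
  push_cast at h1 h2 ⊢
  generalize (wl (fun i => fl a (p.x i)) (fun k => fl a (p.y k)) p.j x : ℂ) = w1 at *
  generalize (wl (fun i => fl a (p.x i)) (fun k => fl a (p.y k)) p.j y : ℂ) = w2 at *
  have e : w1 * (rho p a x / (√a : ℂ)) * (w2 * (rho p a y / (√a : ℂ))) * (w1 * w2 * (Kn Λ p a x y : ℂ)) =
      (w1 * w1) * (w2 * w2) * (rho p a x * rho p a y * (Kn Λ p a x y : ℂ) / ((√a : ℂ) * (√a : ℂ))) := by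
    field_simp
  rw [e, h1, h2, one_mul, one_mul]

theorem PL_all (hp : H436.Good0 p) (k1 : K1 Λ p) (k2 : K2 Λ p) (k3 : K3 Λ p)
    {x y : Lb p.n p.m} (hx : ¬ isTp p x) (hy : ¬ isTp p y) (h : x ≠ y)
    (h1 : ∀ k, ¬ (x = .lo k ∧ y = .hi k)) (h2 : ∀ k, ¬ (x = .hi k ∧ y = .lo k)) : PL Λ p x y := by
  have k2l := fun k i => PL_of Λ p (x := .lo k) (y := .src i) (by simp [isTp]) (by simp [isTp])
    (k2 k i).1.choose_spec
  have k2h := fun k i => PL_of Λ p (x := .hi k) (y := .src i) (by simp [isTp]) (by simp [isTp])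
    (k2 k i).2.choose_spec
  cases x with
  | src i =>
    cases y with
    | src i' =>
      obtain ⟨c, hc⟩ := k1 i i' fun h' => h (congrArg _ h')
      exact PL_of Λ p (by simp [isTp]) (by simp [isTp]) hc
    | lo k => exact PL.swap Λ p hp h.symm (k2l k i)
    | hi k => exact PL.swap Λ p hp h.symm (k2h k i)
    | tp c => exact absurd trivial hy
  | lo k =>
    cases y with
    | src i' => exact k2l k i'
    | lo l =>
      obtain ⟨c, hc⟩ := k3 k l (fun h' => h (congrArg _ h')) (.lo k) (.lo l) (Or.inl rfl)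
        (Or.inl rfl)
      exact PL_of Λ p (by simp [isTp]) (by simp [isTp]) hc
    | hi l =>
      obtain ⟨c, hc⟩ := k3 k l (fun h' => h1 k ⟨rfl, by rw [h']⟩) (.lo k) (.hi l) (Or.inl rfl)
        (Or.inr rfl)
      exact PL_of Λ p (by simp [isTp]) (by simp [isTp]) hc
    | tp c => exact absurd trivial hy
  | hi k =>
    cases y with
    | src i' => exact k2h k i'
    | lo l =>
      obtain ⟨c, hc⟩ := k3 k l (fun h' => h2 k ⟨rfl, by rw [h']⟩) (.hi k) (.lo l) (Or.inr rfl)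
        (Or.inl rfl)
      exact PL_of Λ p (by simp [isTp]) (by simp [isTp]) hc
    | hi l =>
      obtain ⟨c, hc⟩ := k3 k l (fun h' => h (congrArg _ h')) (.hi k) (.hi l) (Or.inr rfl)
        (Or.inr rfl)
      exact PL_of Λ p (by simp [isTp]) (by simp [isTp]) hc
    | tp c => exact absurd trivial hy
  | tp c => exact absurd trivial hx

/-- The centred kernel. -/
noncomputable def Kz (ks : List (Fin p.m)) (a : ℝ) (x y : Lb p.n p.m) : ℝ :=
  cenK (Kw Λ p a) Lb.lo Lb.hi (tk Λ p a) ks x y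

open Classical in
theorem cen_other (ks : List (Fin p.m)) (a : ℝ) {x y : Lb p.n p.m}
    (h : ∀ k, ¬ (x = .lo k ∧ y = .hi k)) : Kz Λ p ks a x y = Kw Λ p a x y := by
  unfold Kz cenK
  have : (ks.map fun k => if x = Lb.lo k ∧ y = Lb.hi k then tk Λ p a k else 0).sum = 0 := by
    refine List.sum_eq_zero fun t ht => ?_
    obtain ⟨k, _, rfl⟩ := List.mem_map.1 ht
    exact if_neg (h k)
  rw [this, sub_zero]

open Classical in
theorem cen_pair {ks : List (Fin p.m)} (a : ℝ) {k : Fin p.m} (hk : k ∈ ks) (hks : ks.Nodup) :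
    Kz Λ p ks a (.lo k) (.hi k) = Kw Λ p a (.lo k) (.hi k) - tk Λ p a k := by
  unfold Kz cenK
  congr 1
  induction ks with
  | nil => simp at hk
  | cons l ks ih =>
    have hl := List.nodup_cons.1 hks
    rw [List.map_cons, List.sum_cons]
    by_cases h : k = l
    · subst h
      have h0 : (ks.map fun l => if (Lb.lo k : Lb p.n p.m) = Lb.lo l ∧ (Lb.hi k : Lb p.n p.m) =
          Lb.hi l then tk Λ p a l else 0).sum = 0 := by
        refine List.sum_eq_zero fun t ht => ?_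
        obtain ⟨l, hl', rfl⟩ := List.mem_map.1 ht
        refine if_neg fun hh => hl.1 ?_
        have := hh.1
        injection this with this
        exact this ▸ hl'
      rw [h0, add_zero, if_pos ⟨rfl, rfl⟩]
    · have hk' : k ∈ ks := by
        rcases List.mem_cons.1 hk with h' | h'
        · exact absurd h' h
        · exact h'
      rw [ih hk' hl.2, if_neg, zero_add]
      rintro ⟨h1, _⟩
      injection h1 with h1
      exact h h1

theorem Kz_pair_lim (hK : K4 Λ p) {ks : List (Fin p.m)} {k : Fin p.m} (hk : k ∈ ks)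
    (hks : ks.Nodup) : ∃ c : ℂ, Tendsto (fun a : ℝ => rr p a (.lo k) * rr p a (.hi k) *
      (Kz Λ p ks a (.lo k) (.hi k) : ℂ)) (𝓝[>] 0) (𝓝 c) := by
  obtain ⟨c, hc⟩ := hK k
  refine ⟨c, hc.congr' ?_⟩
  filter_upwards [self_mem_nhdsWithin] with a ha
  have ha : 0 < a := ha
  have hs : (√a : ℂ) ≠ 0 := by exact_mod_cast (Real.sqrt_pos.2 ha).ne'
  rw [cen_pair Λ p a hk hks, rr_eq p a (x := .lo k) (by simp [isTp]),
    rr_eq p a (x := .hi k) (by simp [isTp])]
  set w : ℝ := wl (fun i => fl a (p.x i)) (fun k => fl a (p.y k)) p.j (.hi k) with hw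
  have hw2 : w * w = 1 := wl_sq p _ _ _
  have hwe : w = ep (cnp p a (.lo k)) (cnp p a (.hi k)) * sgn p a k := rfl
  have e0 : wl (fun i => fl a (p.x i)) (fun k => fl a (p.y k)) p.j (.lo k : Lb p.n p.m) = 1 := rfl
  have e1 : Kw Λ p a (.lo k) (.hi k) = w * Kn Λ p a (.lo k) (.hi k) := by
    show (1 : ℝ) * w * _ = _
    rw [one_mul]; rfl
  have he := ep_sq (cnp p a (.lo k)) (cnp p a (.hi k))
  have e2 : w * (Kw Λ p a (.lo k) (.hi k) - tk Λ p a k) = Kn Λ p a (.lo k) (.hi k) -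
      sgn p a k * Wf (Λ a) 0 [cnp p a (.lo k), cnp p a (.hi k)] := by
    rw [e1, mul_sub, ← mul_assoc, hw2, one_mul]
    congr 1
    unfold tk
    rw [hwe]
    linear_combination (sgn p a k * Wf (Λ a) 0 [cnp p a (.lo k), cnp p a (.hi k)]) * he
  rw [← e2, e0]
  have h3 := sqrt_mul_C ha
  rw [← h3]
  push_cast
  field_simp

/-- All scaled kernels converge. -/
theorem Kz_lim (hp : H436.Good0 p) (hK : K1 Λ p ∧ K2 Λ p ∧ K3 Λ p ∧ K4 Λ p) {ks : List (Fin p.m)}
    (hks : ks.Nodup) {x y : Lb p.n p.m} (hxy : [x, y].Sublist (lbs ks [])) :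
    ∃ c : ℂ, Tendsto (fun a : ℝ => rr p a x * rr p a y *
      (Kz Λ p ks a x y : ℂ)) (𝓝[>] 0) (𝓝 c) := by
  have hnd := lbs_nodup (n := p.n) hks List.nodup_nil
  have hne : x ≠ y := by
    rintro rfl
    have := hnd.sublist hxy
    simp at this
  have hmem : ∀ z : Lb p.n p.m, z ∈ lbs ks [] → ∀ k, (z = .lo k ∨ z = .hi k) → k ∈ ks := by
    intro z hz k hzk
    unfold lbs at hz
    rcases List.mem_append.1 hz with h | h
    · obtain ⟨i, _, rfl⟩ := List.mem_map.1 h
      rcases hzk with h | h <;> cases h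
    · rcases List.mem_append.1 h with h | h
      · unfold flat at h
        rw [List.mem_flatMap] at h
        obtain ⟨l, hl, h⟩ := h
        simp only [List.mem_cons, List.not_mem_nil, or_false] at h
        rcases hzk with rfl | rfl <;> rcases h with h | h <;>
          first | (injection h with h; exact h ▸ hl) | cases h
      · obtain ⟨c, _, rfl⟩ := List.mem_map.1 h
        rcases hzk with h | h <;> cases h
  have hlo : ∀ k ∈ ks, [(Lb.lo k : Lb p.n p.m), .hi k].Sublist (lbs ks []) := by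
    intro k hk
    have h1 : [(Lb.lo k : Lb p.n p.m), .hi k].Sublist (flat Lb.lo Lb.hi ks) := by
      clear hmem hxy hnd hks
      induction ks with
      | nil => simp at hk
      | cons l ks ih =>
        rw [flat_cons]
        rcases List.mem_cons.1 hk with rfl | h
        · exact ((List.nil_sublist _).cons_cons _).cons_cons _
        · exact ((ih h).cons _).cons _
    unfold lbs
    exact (h1.trans (List.sublist_append_left _ _)).trans (List.sublist_append_right _ _)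
  by_cases h1 : ∃ k, x = .lo k ∧ y = .hi k
  · obtain ⟨k, rfl, rfl⟩ := h1
    exact Kz_pair_lim Λ p hK.2.2.2 (hmem _ (hxy.subset (by simp)) k (Or.inl rfl)) hks
  · have h1' : ∀ k, ¬ (x = .lo k ∧ y = .hi k) := fun k hk => h1 ⟨k, hk⟩
    have h2 : ∀ k, ¬ (x = .hi k ∧ y = .lo k) := by
      rintro k ⟨rfl, rfl⟩
      exact nodup_order hnd hxy (hlo k (hmem _ (hxy.subset (by simp)) k (Or.inr rfl)))
    have ht : ∀ z : Lb p.n p.m, z ∈ lbs ks [] → ¬ isTp p z := by
      intro z hz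
      cases z <;> simp [isTp, lbs, flat] at hz ⊢
    obtain ⟨c, hl⟩ := PL_all Λ p hp hK.1 hK.2.1 hK.2.2.1 (ht _ (hxy.subset (by simp)))
      (ht _ (hxy.subset (by simp))) hne h1' h2
    refine ⟨c, hl.congr fun a => ?_⟩
    rw [cen_other Λ p ks a h1']

/-- The correlations as Pfaffians. -/
theorem corr_eq {J : ℝ} (hJ : 0 < J) {a : ℝ}
    (hs : Sep (nn a) (fun i => fl a (p.x i)) (fun k => fl a (p.y k)) ∧ 1 ≤ nn a)
    (hi : Ins (Λ a) (fun i => fl a (p.x i)) (fun k => fl a (p.y k)) p.j) :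
    corr a (fre J Λ a) p = (a ^ (-(1 / 8) : ℝ)) ^ p.n * MM (Λ a) (Rp p a) *
      (a⁻¹ ^ p.m * SG [] (srcs fun i => fl a (p.x i)) *
        Pf (Kz Λ p (univ : Finset (Fin p.m)).toList a) (lbs (univ : Finset (Fin p.m)).toList [])) := by
  have hmean : ∀ k, gibbs J 0 (fun _ => 0) (Kc / J) none (Λ a)
      (fun τ => sp (τ (fl a (p.y k))) * sp (τ (fl a (p.y k) + dir (p.j k)))) = tk Λ p a k :=
    fun k => mean_eq hJ (x := fl a (p.y k)) (p.j k) (hi.hv k) (hi.hw k)
  have hcm : ∀ (c : ℝ) (F : Config → ℝ), gibbs J 0 (fun _ => 0) (Kc / J) none (Λ a)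
      (fun σ => c * F σ) = c * gibbs J 0 (fun _ => 0) (Kc / J) none (Λ a) F := by
    intro c F
    unfold gibbs P144.expect
    simp only [mul_assoc, ← Finset.mul_sum, mul_div_assoc]
  unfold corr fre
  simp only [hmean]
  have e1 : (fun σ : Config => (∏ i, a ^ (-(1 / 8) : ℝ) * sp (σ (fl a (p.x i)))) *
      ∏ k, a⁻¹ * (sp (σ (fl a (p.y k))) * sp (σ (fl a (p.y k) + dir (p.j k))) - tk Λ p a k)) =
      fun σ => ((a ^ (-(1 / 8) : ℝ)) ^ p.n * a⁻¹ ^ p.m) *
        (GG (nn a) (fun i => fl a (p.x i)) (∅ : Finset (Fin 4)).toList σ *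
          ((univ : Finset (Fin p.m)).toList.map fun k =>
            AL.XX (fun k => fl a (p.y k)) p.j k σ - tk Λ p a k).prod) := by
    funext σ
    rw [GG_eq, prod_mul_distrib, prod_mul_distrib, prod_const, prod_const, card_univ, card_univ,
      Fintype.card_fin, Fintype.card_fin, Finset.prod_map_toList, prod_empty]
    unfold AL.XX
    ring
  rw [e1, hcm, toList_empty, mix hJ hs.1 hs.2 hi (nodup_toList _) (tk Λ p a),
    List.map_nil, List.append_nil]
  unfold Kz Rp Kw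
  ring

theorem Gn_eq (hx : Function.Injective p.x) {a : ℝ} (ha : 0 < a) :
    Gn Λ (univ.image p.x) a = (a ^ (-(1 / 8) : ℝ)) ^ p.n * MM (Λ a) (Rp p a) := by
  unfold Gn Mn
  rw [Rp_eq p hx, card_im p hx, ← Real.rpow_natCast, ← Real.rpow_mul ha.le]
  congr 2
  ring

end

theorem ins_ev {D : Set ℂ} {Λ : ℝ → Finset Site} (hΛ : Fam0 D Λ) {p : Pts} (hp : Good0 D p) :
    ∀ᶠ a in 𝓝[>] (0:ℝ), Ins (Λ a) (fun i => fl a (p.x i)) (fun k => fl a (p.y k)) p.j := by
  filter_upwards [hΛ.kc, eventually_all.2 fun i => hΛ.mem idt (hp.1 i) (flt _),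
    eventually_all.2 fun k => hΛ.deep idt (hp.2.1 k) (flt _) 1] with a h1 h2 h3
  refine ⟨h1, h2, fun k => h3 k _ (by simp) (by simp), fun k => h3 k _ ?_ ?_⟩ <;>
    unfold dir <;> split_ifs <;> simp

/-- The limits of the mixed correlations follow from the limits of the kernels and the
normalisation. -/
theorem asm {J : ℝ} (hJ : 0 < J) {D : Set ℂ} (hD : D ⊆ Dia) {Λ : ℝ → Finset Site} (hΛ : Fam0 D Λ)
    (hK : ∀ p, Good0 D p → K1 Λ p ∧ K2 Λ p ∧ K3 Λ p ∧ K4 Λ p) (hn : NormE D Λ) :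
    AllLim D (fre J Λ) := by
  intro p hp1
  have hp0 : Good0 D p := hp1.2
  have hp : H436.Good0 p := ⟨fun i => hD (hp0.1 i), fun k => hD (hp0.2.1 k), hp0.2.2⟩
  have hK := hK p hp0
  unfold Lim
  have hx : Function.Injective p.x := fun i i' h => Sum.inl_injective (hp.2.2 (by simpa using h))
  have hX : ∀ z ∈ univ.image p.x, z ∈ D := by
    intro z hz
    obtain ⟨i, _, rfl⟩ := mem_image.1 hz
    exact hp0.1 i
  have hxy : ∀ k i, p.y k ≠ p.x i := fun k i h => by
    have := @hp.2.2 (Sum.inr k) (Sum.inl i) (by simpa using h)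
    cases this
  set ks := (univ : Finset (Fin p.m)).toList with hks
  have hksn : ks.Nodup := nodup_toList _
  have hev0 := ((sep_ev p hp).and (ins_ev hΛ hp0)).and self_mem_nhdsWithin
  have hlen : ks.length = p.m := by rw [hks, length_toList, card_univ, Fintype.card_fin]
  by_cases hev : Even (lbs (n := p.n) ks []).length
  swap
  · refine ⟨0, ?_⟩
    refine tendsto_const_nhds.congr' ?_
    filter_upwards [hev0] with a ha
    rw [corr_eq Λ p hJ ha.1.1 ha.1.2, ← hks, Pf_odd _ _ hev]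
    ring
  -- the limit of the Pfaffian
  classical
  set kap : Lb p.n p.m → Lb p.n p.m → ℂ := fun x y => if h : ∃ c : ℂ,
    Tendsto (fun a : ℝ => rr p a x * rr p a y * (Kz Λ p ks a x y : ℂ)) (𝓝[>] 0) (𝓝 c)
    then h.choose else 0 with hkap
  have hkl : ∀ x y : Lb p.n p.m, [x, y].Sublist (lbs ks []) → Tendsto (fun a : ℝ => rr p a x *
      rr p a y * (Kz Λ p ks a x y : ℂ)) (𝓝[>] 0) (𝓝 (kap x y)) := by
    intro x y hxy
    have h := Kz_lim Λ p hp hK hksn hxy
    simp only [hkap]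
    rw [dif_pos h]
    exact h.choose_spec
  have hPf := Pf_tendstoC (fun a x y => rr p a x * rr p a y * (Kz Λ p ks a x y : ℂ)) kap
    (lbs ks []) hkl
  -- the energies
  have hen : ∃ H : ℂ, H ≠ 0 ∧ Tendsto (fun a : ℝ => (ks.map fun k =>
      (wl (fun i => fl a (p.x i)) (fun k => fl a (p.y k)) p.j (.hi k) : ℂ) *
        (rho p a (.lo k) * rho p a (.hi k))).prod) (𝓝[>] 0) (𝓝 H) := by
    refine ⟨(ks.map fun k => (en_lim p hxy k).choose).prod, ?_, ?_⟩
    · refine List.prod_ne_zero ?_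
      intro h
      obtain ⟨k, _, hk⟩ := List.mem_map.1 h
      exact (en_lim p hxy k).choose_spec.1 hk
    · exact tendsto_list_prod ks fun k _ => (en_lim p hxy k).choose_spec.2
  obtain ⟨H, hH0, hH⟩ := hen
  -- the identity
  have hid : ∀ᶠ a in 𝓝[>] (0:ℝ), (corr a (fre J Λ a) p : ℂ) = (Gn Λ (univ.image p.x) a : ℂ) *
      ((SG [] (srcs fun i => fl a (p.x i)) : ℂ) * ∏ i, ((√a : ℂ) / rho p a (.src i))) *
      (((ks.map fun k => (wl (fun i => fl a (p.x i)) (fun k => fl a (p.y k)) p.j (.hi k) : ℂ) *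
        (rho p a (.lo k) * rho p a (.hi k))).prod)⁻¹ *
        Pf (fun x y => rr p a x * rr p a y * (Kz Λ p ks a x y : ℂ)) (lbs ks [])) := by
    have hr0 : ∀ i, ∀ᶠ a in 𝓝[>] (0:ℝ), rho p a (.src i) ≠ 0 := by
      intro i
      obtain ⟨c, hc, hl⟩ := rho_src p hx i
      filter_upwards [hl.eventually_ne hc.ne'] with a h1 h2
      apply h1
      rw [h2]; simp
    filter_upwards [hev0, eventually_all.2 hr0, hH.eventually_ne hH0] with a ha hr1 hH1
    have ha' : 0 < a := ha.2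
    have ha0 : (a : ℂ) ≠ 0 := by exact_mod_cast ha'.ne'
    have hs : (√a : ℂ) ≠ 0 := by exact_mod_cast (Real.sqrt_pos.2 ha').ne'
    rw [corr_eq Λ p hJ ha.1.1 ha.1.2, ← hks, ← Gn_eq Λ p hx ha', Pf_scale _ _ _ hev,
      rr_prod p ha', hlen]
    push_cast
    rw [Pf_ofReal]
    have hP : (∏ i, (√a : ℂ) / rho p a (.src i)) * ∏ i, rho p a (.src i) / (√a : ℂ) = 1 := by
      rw [← prod_mul_distrib]
      refine prod_eq_one fun i _ => ?_
      have := hr1 i
      field_simp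
    generalize (∏ i, (√a : ℂ) / rho p a (.src i)) = A at *
    generalize (∏ i, rho p a (.src i) / (√a : ℂ)) = B at *
    generalize ((ks.map fun k => (wl (fun i => fl a (p.x i)) (fun k => fl a (p.y k)) p.j (.hi k) :
      ℂ) * (rho p a (.lo k) * rho p a (.hi k))).prod) = D at *
    generalize Pf (fun x y => (Kz Λ p ks a x y : ℂ)) (lbs ks []) = P at *
    have hA : A * (B * D * (a : ℂ)⁻¹ ^ p.m * P) = D * ((a : ℂ)⁻¹ ^ p.m * P) := by
      linear_combination (D * (a : ℂ)⁻¹ ^ p.m * P) * hP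
    have h5 : A * (D⁻¹ * (B * D * (a : ℂ)⁻¹ ^ p.m * P)) = (a : ℂ)⁻¹ ^ p.m * P := by
      rw [show A * (D⁻¹ * (B * D * (a : ℂ)⁻¹ ^ p.m * P)) =
        D⁻¹ * (A * (B * D * (a : ℂ)⁻¹ ^ p.m * P)) by ring, hA, ← mul_assoc,
        inv_mul_cancel₀ hH1, one_mul]
    linear_combination (-(Gn Λ (univ.image p.x) a : ℂ) * (SG [] (srcs fun i => fl a (p.x i)) : ℂ)) * h5
  have hHP := (hH.inv₀ hH0).mul hPf
  have hn' : Even p.n := by
    rw [lbs_length] at hev
    exact (Nat.even_add.1 hev).2 (by simp)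
  obtain ⟨g, _, hg⟩ := hn _ hX (by rw [card_im p hx]; exact hn')
  obtain ⟨c, hc⟩ := src_lim p hx
  have hc' : Tendsto (fun a : ℝ => (SG [] (srcs fun i => fl a (p.x i)) : ℂ) *
      ∏ i, ((√a : ℂ) / rho p a (.src i))) (𝓝[>] 0) (𝓝 c) := by
    refine hc.congr fun a => ?_
    unfold SG
    simp
  have hg' : Tendsto (fun a => (Gn Λ (univ.image p.x) a : ℂ)) (𝓝[>] 0) (𝓝 (g : ℂ)) :=
    (Complex.continuous_ofReal.tendsto _).comp hg
  have hall := ((hg'.mul hc').mul hHP).congr' (hid.mono fun a h => h.symm)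
  exact ⟨_, (Complex.continuous_re.tendsto _).comp hall⟩

end Vale.Agent.P144Q.E
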