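import Vale.Agent.P144Q.E.Asm
import Vale.Agent.P144P.All

/-!
The normalisation in a general domain: comparison of the disorder correlations of a small cluster.
-/

namespace Vale.Agent.P144Q.E

open Finset Vale.Agent.P144.AL Filter Topology
open Vale.Agent.P144 hiding QQ XX
open Vale.Agent.P144.H436 (nn MM tr)
open Vale.Agent.P144.H170 (Pt bx mem_bx pt)
open Vale.Agent.P144P (kf Lat Ref nt)

/-- The disorder correlation of a cluster hardly depends on the volume. -/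
theorem lat0 {n : ℕ} (hn : Even n) {ε : ℝ} (hε : 0 < ε) : ∃ T : ℕ, ∀ (u : Fin n → Site) (k N : ℕ),
    4 ≤ k → (∀ i, u i ∈ bx 0 k) → (∀ i i', i ≠ i' → u i ∉ cnr (u i')) → T * k ≤ N →
    ∀ Λ, (1 - ε) * MM (dia N) (fcs (srcs u)) ≤ MM Λ (fcs (srcs u)) := by
  classical
  obtain ⟨K, hK, hS⟩ := P144P.src P144P.pw
  set L := lbs (n := n) ([] : List (Fin 0)) [] with hL
  obtain ⟨D, hD, hlip⟩ := P144P.Two.Pf_lip (α := Lb n 0) (B := 4000) (by norm_num) L.length
  have hD0 : 0 < D := by linarith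
  set η : ℝ := min 1 (ε / D) with hη
  have hη0 : 0 < η := lt_min one_pos (by positivity)
  have hη2 : D * η ≤ ε := by
    rw [mul_comm, ← le_div_iff₀ hD0]
    exact min_le_right _ _
  obtain ⟨T, hT, hC⟩ := P144P.score.at (ε := η ^ 2 / (2 * K)) (by positivity)
  refine ⟨max T 200, fun u k N hk hu hc hN Λ => ?_⟩
  have hinj : Function.Injective u := fun i i' h => by
    by_contra hne
    exact hc i i' hne (h ▸ mem_cnr.2 (Or.inl rfl))
  have h1 : T * k ≤ N := (Nat.mul_le_mul_right k (le_max_left _ _)).trans hN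
  have h2 : 200 * k ≤ N := (Nat.mul_le_mul_right k (le_max_right _ _)).trans hN
  set v : Fin 0 → Site := Fin.elim0 with hv
  set j : Fin 0 → Fin 2 := Fin.elim0 with hj
  have hLat : Lat u v j k 1 := ⟨hk, one_pos, by lia, hu, fun l => l.elim0, hinj, hn,
    fun _ l => l.elim0⟩
  have hcn : ∀ i, ∀ f ∈ fcs (srcs u), f ≠ u i → u i ∉ cnr f := fun i f hf hne => by
    obtain ⟨i', rfl⟩ := (P144P.mem_srcs u).1 hf
    exact hc i i' fun h => hne (by rw [h])
  have hRef : Ref u v j k N 1 K := by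
    refine ⟨fun y hy => ?_, fun l => l.elim0⟩
    cases y with
    | src i =>
      show P144P.Ptw (kf N _ (u i, u i)) k (K * 1)
      rw [mul_one]
      exact hS N k _ _ hk h2 (P144P.nodup_srcs u hinj) ((P144P.mem_srcs u).2 ⟨i, rfl⟩) (hcn i)
        hLat.rin
    | lo l => exact l.elim0
    | hi l => exact l.elim0
    | tp c => exact absurd hy id
  have hsep : ∀ M, N ≤ M → Sep M u v := fun M hM => ⟨fun i => by
    have := P144P.bx_l1 (hu i); lia, fun l => l.elim0, hinj, fun l => l.elim0, fun _ l => l.elim0⟩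
  have hsrc : ∀ z ∈ L, ∃ i, z = Lb.src i := by
    intro z hz
    simp only [hL, lbs, flat, List.flatMap_nil, List.map_nil, List.append_nil, List.mem_map] at hz
    obtain ⟨i, _, rfl⟩ := hz
    exact ⟨i, rfl⟩
  have hP : ∀ M : ℕ, N ≤ M → |Pf (AL.KK M u v j) L - Pf (AL.KK N u v j) L| ≤ D * η := by
    intro M hM
    refine (hlip L le_rfl _ _ η hη0.le (min_le_left _ _) fun x y hxy => ?_).2
    obtain ⟨i, rfl⟩ := hsrc x (hxy.subset (by simp))
    obtain ⟨i', rfl⟩ := hsrc y (hxy.subset (by simp))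
    constructor
    · have a1 := P144P.src_sum (N := N) (P144P.nodup_srcs u hinj)
        ((P144P.mem_srcs u).2 ⟨i', rfl⟩) (hcn i')
        (fun f hf => by have := P144P.bx_l1 (hLat.rin f hf); lia) (u i) 0
      have a2 := single_le_sum (f := fun x => (kf N (fcs (srcs u)) (u i', u i')).sq x)
        (fun x _ => P144P.Fld.sq_nn _ x) (show u i ∈ bx (u i) 0 by rw [mem_bx]; simp)
      have a3 : AL.KK N u v j (.src i) (.src i') = (kf N (fcs (srcs u)) (u i', u i')).A (u i) := by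
        show 1 * 1 * Wf (dia N) _ [(u i, u i), (u i', u i')] = _
        rw [one_mul, one_mul]
        exact P144P.Wf_Tl _ ((hsep N le_rfl).cn_dia (j := j) (.src i))
      rw [a3]
      refine abs_le_of_sq_le_sq' ?_ (by norm_num) |> abs_le.2
      unfold P144P.Fld.sq at a1 a2
      push_cast at a1
      nlinarith [sq_nonneg ((kf N (fcs (srcs u)) (u i', u i')).B (u i)),
        sq_nonneg ((kf N (fcs (srcs u)) (u i', u i')).C (u i)),
        sq_nonneg ((kf N (fcs (srcs u)) (u i', u i')).E (u i))]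
    · have a1 := hLat.dif hC h1 (h1.trans hM) hRef hT (by positivity) hK.le one_pos one_pos
        (by simp) (x := .src i) (y := .src i') trivial trivial
      refine abs_le_of_sq_le_sq' (a1.trans_eq ?_) hη0.le |> abs_le.2
      simp only [P144P.sig]
      field_simp
      norm_num
  have hs1 : |SG [] (srcs u)| = 1 := by
    have := SG_sq [] (srcs u)
    rw [← abs_mul_abs_self] at this
    nlinarith [abs_nonneg (SG [] (srcs u))]
  set A : Finset Site := univ.map ⟨u, hinj⟩ with hA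
  have hAv : A.val = fcs (srcs u) := by
    unfold fcs srcs
    rw [List.map_map]
    rfl
  have hrat := P144P.Two.ratio one_pos (A := A)
    (by rw [hA, card_map, card_univ, Fintype.card_fin]; exact hn) (δ := D * η) (N := N)
    (fun x hx => by
      obtain ⟨i, _, rfl⟩ := mem_map.1 hx
      exact (hsep N le_rfl).cn_dia (j := j) (Lb.src i))
    (fun M => SG [] (srcs u) * Pf (AL.KK M u v j) L) (fun M hM => by
      have e := AL.base' (j := j) one_pos (hsep M hM) (by lia) List.nodup_nil List.nodup_nil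
      rw [List.map_nil, List.append_nil] at e
      rw [hAv, ← mul_assoc]
      refine Eq.trans ?_ e
      unfold fcor
      refine congrArg _ (funext fun σ => ?_)
      have := GG_eq (N := M) (u := u) ∅ σ
      rw [toList_empty] at this
      rw [this, hA, prod_map]
      simp)
    (fun M hM => by
      rw [← mul_sub, abs_mul, hs1, one_mul]
      exact hP M hM) Λ
  rw [hAv] at hrat
  exact (mul_le_mul_of_nonneg_right (by linarith) (H436.MM_pos _ _).le).trans hrat

theorem srcs_tr {n : ℕ} (u : Fin n → Site) (c : Site) :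
    fcs (srcs fun i => u i + c) = (fcs (srcs u)).map (tr c) := by
  unfold fcs srcs
  rw [List.map_map, List.map_map, Multiset.map_coe, List.map_map]
  rfl

/-- The same around any centre. -/
theorem lat {n : ℕ} (hn : Even n) {ε : ℝ} (hε : 0 < ε) (hε1 : ε ≤ 1) : ∃ T : ℕ,
    ∀ (u : Fin n → Site) (c : Site) (k : ℕ), 4 ≤ k → (∀ i, u i ∈ bx c k) →
    (∀ i i', i ≠ i' → u i ∉ cnr (u i')) → ∀ Λ₁ : Finset Site,
    (∀ x : Site, |x.1 - c.1| ≤ (T * k : ℕ) → |x.2 - c.2| ≤ (T * k : ℕ) → x ∈ Λ₁) →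
    ∀ Λ, (1 - ε) * MM Λ₁ (fcs (srcs u)) ≤ MM Λ (fcs (srcs u)) := by
  obtain ⟨T, h⟩ := lat0 hn hε
  refine ⟨T, fun u c k hk hu hc Λ₁ h1 Λ => ?_⟩
  have e : u = fun i => u i - c + c := funext fun i => (sub_add_cancel _ _).symm
  have h2 := h (fun i => u i - c) k (T * k) hk (fun i => by
    have := mem_bx.1 (hu i)
    rw [mem_bx]
    simp only [Prod.fst_sub, Prod.snd_sub, Prod.fst_zero, Prod.snd_zero]
    lia) (fun i i' hne h' => hc i i' hne (by
      rw [mem_cnr] at h' ⊢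
      simp only [Prod.ext_iff, Prod.fst_sub, Prod.snd_sub] at h' ⊢
      lia)) le_rfl (Λ.map (tr (-c)).toEmbedding)
  rw [← H436.MM_tr c (dia _), ← H436.MM_tr c (Λ.map _), ← srcs_tr, ← e, Finset.map_map] at h2
  have e2 : Λ.map ((tr (-c)).toEmbedding.trans (tr c).toEmbedding) = Λ := by
    have : (tr (-c)).toEmbedding.trans (tr c).toEmbedding = Function.Embedding.refl _ := by
      ext x <;> simp [tr]
    rw [this, Finset.map_refl]
  rw [e2] at h2
  refine le_trans (mul_le_mul_of_nonneg_left (H436.MM_anti (fun x hx => ?_) _) (by linarith)) h2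
  have := H436.mem_dia_tr.1 hx
  unfold H436.d1 at this
  have := abs_nonneg (x.1 - c.1)
  have := abs_nonneg (x.2 - c.2)
  exact h1 x (by lia) (by lia)

theorem fl_near {a : ℝ} (ha : 0 < a) {z w : ℂ} {s : ℝ} (h : ‖z - w‖ ≤ s) :
    fl a z ∈ bx (fl a w) (⌈s / a⌉₊ + 1) := by
  have key : ∀ x y : ℝ, |x - y| ≤ s → ⌊y / a⌋ - ((⌈s / a⌉₊ + 1 : ℕ) : ℤ) ≤ ⌊x / a⌋ ∧
      ⌊x / a⌋ ≤ ⌊y / a⌋ + ((⌈s / a⌉₊ + 1 : ℕ) : ℤ) := by
    intro x y hxy
    have h1 : |x / a - y / a| ≤ ⌈s / a⌉₊ := by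
      rw [← sub_div, abs_div, abs_of_pos ha]
      exact (div_le_div_of_nonneg_right hxy ha.le).trans (Nat.le_ceil _)
    rw [abs_le] at h1
    have h2 := Int.floor_le (x / a)
    have h3 := Int.lt_floor_add_one (x / a)
    have h4 := Int.floor_le (y / a)
    have h5 := Int.lt_floor_add_one (y / a)
    constructor
    · have : (⌊y / a⌋ : ℝ) - ((⌈s / a⌉₊ + 1 : ℕ) : ℤ) ≤ ⌊x / a⌋ := by push_cast; linarith
      exact_mod_cast this
    · have : (⌊x / a⌋ : ℝ) ≤ ⌊y / a⌋ + ((⌈s / a⌉₊ + 1 : ℕ) : ℤ) := by push_cast; linarith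
      exact_mod_cast this
  rw [mem_bx]
  exact ⟨key _ _ ((Complex.abs_re_le_norm (z - w)).trans h),
    key _ _ ((Complex.abs_im_le_norm (z - w)).trans h)⟩

/-- A small cluster whose disorder correlation is that of the diamond. -/
theorem cluster {D : Set ℂ} {Λ : ℝ → Finset Site} (ho : IsOpen D) (hD : D ⊆ Metric.ball 0 (1 / 4))
    (hΛ : Fam0 D Λ) {z : ℂ} (hz : z ∈ D) {n : ℕ} (hn : Even n) {ε : ℝ} (hε : 0 < ε) (hε1 : ε ≤ 1) :
    ∃ X : Finset ℂ, (∀ w ∈ X, w ∈ D) ∧ X.card = n ∧ ∀ᶠ a in 𝓝[>] (0:ℝ),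
      H436.Mn a X ≤ Mn Λ a X ∧ (1 - ε) * Mn Λ a X ≤ H436.Mn a X := by
  classical
  obtain ⟨T, hT⟩ := lat hn hε hε1
  obtain ⟨ρ, hρ, hb⟩ := Metric.nhds_basis_closedBall.mem_iff.1 (ho.mem_nhds hz)
  set s : ℝ := ρ / (4 * (T + 1)) with hs
  have hs0 : 0 < s := by positivity
  have hsT : T * s ≤ ρ / 4 ∧ s ≤ ρ := by
    have : (T + 1) * s = ρ / 4 := by rw [hs]; field_simp
    constructor <;> nlinarith [(Nat.cast_nonneg T : (0:ℝ) ≤ T)]
  set p : Pts := ⟨n, 0, fun i => z + ((s * (i / n) : ℝ) : ℂ), Fin.elim0, Fin.elim0⟩ with hp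
  have hx : Function.Injective p.x := fun i i' h => by
    have h1 : s * ((i : ℕ) / n) = s * ((i' : ℕ) / n) := by exact_mod_cast add_left_cancel h
    have h2 : (n : ℝ) ≠ 0 := by exact_mod_cast i.pos.ne'
    exact Fin.ext (by exact_mod_cast (div_left_inj' h2).1 (mul_left_cancel₀ hs0.ne' h1))
  have hd : ∀ i, ‖p.x i - z‖ ≤ s := fun i => by
    have h1 : (0:ℝ) < n := by exact_mod_cast i.pos
    have h2 : ((i : ℕ) : ℝ) / n ≤ 1 := by rw [div_le_one h1]; exact_mod_cast i.2.le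
    show ‖z + ((s * (i / n) : ℝ) : ℂ) - z‖ ≤ s
    rw [add_sub_cancel_left, Complex.norm_real, Real.norm_of_nonneg (by positivity)]
    exact mul_le_of_le_one_right hs0.le h2
  refine ⟨univ.image p.x, fun w hw => ?_, card_im p hx, ?_⟩
  · obtain ⟨i, _, rfl⟩ := mem_image.1 hw
    exact hb (by rw [Metric.mem_closedBall, dist_eq_norm]; exact (hd i).trans hsT.2)
  have hc : ∀ᶠ a in 𝓝[>] (0:ℝ), ∀ i i', i ≠ i' → fl a (p.x i) ∉ cnr (fl a (p.x i')) := by
    refine eventually_all.2 fun i => eventually_all.2 fun i' => ?_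
    by_cases h : i = i'
    · exact Eventually.of_forall fun a h' => absurd h h'
    have k := fun e => H365.far_ev idt (flt (p.x i)) (flt (p.x i')) (hx.ne h) e
    filter_upwards [k (0, 0), k (1, 0), k (0, 1), k (1, 1)] with a k1 k2 k3 k4 _ h'
    rcases mem_cnr.1 h' with e | e | e | e
    · exact k1 (by rw [e]; simp)
    · exact k2 (by rw [e]; ext <;> simp)
    · exact k3 (by rw [e]; ext <;> simp)
    · exact k4 (by rw [e]; ext <;> simp)
  have ha0 : Tendsto (fun a : ℝ => a * (4 * T + 2)) (𝓝[>] 0) (𝓝 (0 * (4 * T + 2))) :=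
    (tendsto_id.mono_left nhdsWithin_le_nhds).mul_const _
  rw [zero_mul] at ha0
  filter_upwards [hc, hΛ.cpt (isCompact_closedBall z ρ) hb, hΛ.big idt hD 0,
    ha0.eventually_lt_const (half_pos hρ), Ioo_mem_nhdsGT (by positivity : 0 < s / 3)]
    with a h1 h2 h3 h4 h5
  have ha : 0 < a := h5.1
  unfold H436.Mn Mn
  rw [Rp_eq p hx, show disc Dia a = dia (nn a) from H436.disc_Dia ha]
  refine ⟨H436.MM_anti (fun x hx => by have := h3 x hx; rw [mem_dia]; lia) _, ?_⟩
  have h6 : (3:ℝ) < ⌈s / a⌉₊ := by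
    refine lt_of_lt_of_le ?_ (Nat.le_ceil _)
    rw [lt_div_iff₀ ha]; linarith [h5.2]
  have h7 : 3 < ⌈s / a⌉₊ := by exact_mod_cast h6
  refine hT _ (fl a z) (⌈s / a⌉₊ + 1) (by lia) (fun i => fl_near ha (hd i)) h1 _
    (fun x e1 e2 => h2 x ?_) _
  rw [Metric.mem_closedBall, dist_eq_norm]
  have b1 := pt_sub_le ha e1 e2
  have b2 := H170.pt_fl_norm ha z
  have b3 := norm_sub_le_norm_sub_add_norm_sub (pt a x) (pt a (fl a z)) z
  have b4 : (⌈s / a⌉₊ : ℝ) * a < s + a := by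
    have := Nat.ceil_lt_add_one (div_pos hs0 ha).le
    rw [← lt_div_iff₀ ha, add_div, div_self ha.ne']
    exact this
  have b5 := mul_le_mul_of_nonneg_left b4.le (Nat.cast_nonneg T : (0:ℝ) ≤ T)
  push_cast at b1
  nlinarith [hsT.1]

theorem norm : SNorm := by
  intro D Λ ho hD hΛ hr X hX he
  rcases X.eq_empty_or_nonempty with rfl | ⟨z, hz⟩
  · refine ⟨1, one_pos, tendsto_const_nhds.congr fun a => ?_⟩
    unfold Gn Mn
    simp [H436.MM_zero]
  have key : ∀ ε > (0:ℝ), ∃ (H : ℝ → ℝ) (w : ℝ), 0 < w ∧ Tendsto H (𝓝[>] 0) (𝓝 w) ∧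
      ∀ᶠ a in 𝓝[>] (0:ℝ), H a ≤ Gn Λ X a ∧ Gn Λ X a ≤ (1 + ε) * H a := by
    intro ε hε
    obtain ⟨Y, hY, hc, h⟩ := cluster ho hD hΛ (hX z hz) he (ε := ε / (1 + ε)) (by positivity)
      (by rw [div_le_one (by positivity)]; linarith)
    obtain ⟨ρ, hρ, h1⟩ := hr X Y hX hY hc.symm he
    obtain ⟨g, hg, h2⟩ := H436.norm_even one_pos (H365.merge one_pos) H365.ratioM
      (AL.quotSM one_pos AL.kp) (X := Y) (fun w hw => ball_Dia (by
        have : ‖w‖ < 1 / 4 := by simpa using hD (hY w hw)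
        linarith)) (hc ▸ he)
    refine ⟨_, _, mul_pos hg hρ, h2.mul h1, ?_⟩
    filter_upwards [h, self_mem_nhdsWithin] with a h3 ha
    have ha : 0 < a := ha
    have p1 : 0 < Mn Λ a X := H436.MM_pos _ _
    have p2 : 0 < Mn Λ a Y := H436.MM_pos _ _
    have p3 : 0 < a ^ (-(X.card : ℝ) / 8) * (Mn Λ a X / Mn Λ a Y) := by positivity
    have e1 : Gn Λ X a = a ^ (-(X.card : ℝ) / 8) * (Mn Λ a X / Mn Λ a Y) * Mn Λ a Y := by
      unfold Gn; field_simp
    have e2 : H436.Gn Y a * (Mn Λ a X / Mn Λ a Y) =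
        a ^ (-(X.card : ℝ) / 8) * (Mn Λ a X / Mn Λ a Y) * H436.Mn a Y := by
      unfold H436.Gn; rw [hc]; ring
    have e3 : Mn Λ a Y ≤ (1 + ε) * H436.Mn a Y := by
      have := mul_le_mul_of_nonneg_left h3.2 (by positivity : 0 ≤ 1 + ε)
      rwa [← mul_assoc, show (1 + ε) * (1 - ε / (1 + ε)) = 1 by field_simp; ring, one_mul] at this
    rw [e1, e2]
    exact ⟨mul_le_mul_of_nonneg_left h3.1 p3.le,
      (mul_le_mul_of_nonneg_left e3 p3.le).trans_eq (by ring)⟩
  obtain ⟨H, w, -, h1, h2⟩ := key 1 one_pos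
  refine H436.lim_of_factor (C := 2 * (w + 1)) ?_ key
  filter_upwards [h2, h1.eventually_lt_const (lt_add_one w)] with a h3 h4
  linarith [h3.2]

end Vale.Agent.P144Q.E
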